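import Vale.Agent.P004F.Top

/-! # P014 T: a pair of twists for the frame -/

set_option linter.all false

open NumberField Filter
open scoped Classical NumberTheorySymbols

noncomputable section

namespace Vale.Agent.P014T

open Vale.Agent.P022 Vale.Agent.P004K Vale.Agent.P004F
open P004T (ds PosD TwoK TwoR Sp LOC2 GWK2 Rel NoI)
open P004S (SMITH Null Rp Rep Two Z1)
open P004Z (Ok eps)
open P004N (RN)
open Vale.Agent.P022D.W (dec)
open Vale.Agent.P022E.GW (Ov)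

/-- **the pair exists** -/
def PAIR (C : (ℕ → ℤ) → Prop) : Prop := ∀ N G a, RN N G a → C a →
  ∃ A B : ℤ, ∀ (S₀ : Finset ℕ) (s : ℤ) (M T : ℕ), (∀ l ∈ S₀, l.Prime) → s = 1 ∨ s = -1 → M ≠ 0 →
    ∃ (e : Crv) (b : Fld e), e.N = N ∧ e.a = a ∧ e.A = A ∧ e.B = B ∧ (∀ l ∈ S₀, l ∈ e.S) ∧
      (M : ℤ) ∣ ds e.δ - 1 ∧ eps e.δ = s ∧ J(N | e.δ) = 1 ∧ T ≤ e.δ ∧ T ≤ b.δ' ∧ b.Anc ∧
      ¬ TwoR e.rp (ds e.δ) ∧ ¬ TwoR e.rp (ds e.δ * -b.δ') ∧
      ¬ TwoK e.rp (e.P 2) (ds e.δ) (-b.δ')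

theorem null_twoR (hS : SMITH) (hI : P004T.ISO) (hL : LOC2) {r : Rp} {S : Finset ℕ} {P : Ideal (𝓞 Qb)}
    (hr : Rep r S) (hP : Ov 2 P) (hn : NoI r) : Null (TwoR r) := by
  obtain ⟨n, Λ, hΛ, hc⟩ := hL r S P hr hP hn
  refine P004T.null_mono (P004T.null_ex Finset.univ fun i _ => hS _ _ (Λ i) hr) ?_
  rintro d - ⟨c, c', k, k', hi⟩
  have z : ∀ {b}, Rel r d b → Z1 r d (dec P) b := fun hb => En.z_res hb.1 (Set.subset_univ _)
  obtain ⟨i, h2, h3⟩ := hc d c c' (z k) (z k') (hI r S P d _ _ hr hP k k)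
    (hI r S P d _ _ hr hP k k') (hI r S P d _ _ hr hP k' k) (hI r S P d _ _ hr hP k' k')
  exact ⟨i, Finset.mem_univ _, c, c', ⟨k.1, by rw [hΛ]; exact h2, k.2⟩,
    ⟨k'.1, by rw [hΛ]; exact h3, k'.2⟩, hi⟩

theorem jac_neg {δ : ℕ} (h : δ % 8 = 7) (N : ℕ) (k : N ∣ δ + 1) : J(N | δ) = 1 := by
  have o : Odd δ := Nat.odd_iff.2 (by omega)
  induction N using Nat.recOnMul with
  | zero => simp at k
  | one => simp
  | mul a b ha hb =>
    rw [Nat.cast_mul, jacobiSym.mul_left, ha (Dvd.dvd.trans (dvd_mul_right _ _) k),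
      hb (Dvd.dvd.trans (dvd_mul_left _ _) k), one_mul]
  | prime p hp =>
    rcases hp.eq_two_or_odd' with rfl | po
    · rw [Nat.cast_two, jacobiSym.at_two o, ZMod.χ₈_nat_mod_eight, h]; rfl
    have e : J(δ | p) = ZMod.χ₄ p := by
      rw [← jacobiSym.at_neg_one po]
      exact jacobiSym.mod_left' (Int.modEq_iff_dvd.2 (by
        rw [show (-1 : ℤ) - δ = -((δ + 1 : ℕ) : ℤ) by push_cast; ring]
        exact (Int.natCast_dvd_natCast.2 k).neg_right))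
    have := Nat.odd_iff.1 po
    rcases (by omega : p % 4 = 1 ∨ p % 4 = 3) with t | t
    · rw [jacobiSym.quadratic_reciprocity_one_mod_four t o, e, ZMod.χ₄_nat_one_mod_four t]
    · rw [jacobiSym.quadratic_reciprocity_three_mod_four t (by omega), e,
        ZMod.χ₄_nat_three_mod_four t, neg_neg]

/-- the first twist -/
theorem ex_delta {B : ℤ → Prop} (hB : Null B) {N M : ℕ} (N0 : N ≠ 0) (M0 : M ≠ 0) {s : ℤ}
    (hs : s = 1 ∨ s = -1) (T : ℕ) : ∃ δ : ℕ, Ok N δ ∧ M.Coprime δ ∧ (M : ℤ) ∣ ds δ - 1 ∧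
      eps δ = s ∧ J(N | δ) = 1 ∧ T ≤ δ ∧ ¬ B (ds δ) := by
  obtain ⟨q, hq⟩ : ∃ q, 8 * N * M = q + 1 := Nat.exists_eq_succ_of_ne_zero (by positivity)
  have s0 : s ≠ 0 := by omega
  obtain ⟨a, a1, a2⟩ : ∃ a : ℕ, a.Coprime (8 * N * M) ∧ ((8 * N * M : ℕ) : ℤ) ∣ a - s := by
    rcases hs with rfl | rfl
    · exact ⟨1, Nat.coprime_one_left _, by simp⟩
    · exact ⟨q, by simp [hq], by simp [hq]⟩
  obtain ⟨δ, ⟨d1, d2, d3⟩, d4⟩ := P004T.ex_of_null (P004T.null_comp hB s0)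
    (P004T.posd_sqf (by positivity) a1 (T + 1))
  have d5 : ((8 * N * M : ℕ) : ℤ) ∣ δ - s := by
    have := (dvd_sub a2 d2.dvd)
    rwa [show (a : ℤ) - s - (a - δ) = δ - s by ring] at this
  have d6 : (8 * N * M).Coprime δ := by
    have := a1
    rw [Nat.Coprime, ← d2.gcd_eq] at this
    exact Nat.Coprime.symm this
  have d7 : (8 : ℤ) ∣ δ - s := Dvd.dvd.trans ⟨N * M, by push_cast; ring⟩ d5
  have o : Odd δ := Nat.odd_iff.2 (by omega)
  have e1 : eps δ = s := by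
    rw [eps, jacobiSym.at_neg_one o]
    rcases hs with rfl | rfl
    · exact ZMod.χ₄_nat_one_mod_four (by omega)
    · exact ZMod.χ₄_nat_three_mod_four (by omega)
  have d8 : ((8 * N * M : ℕ) : ℤ) ∣ ds δ - 1 := by
    rw [ds, e1, show s * δ - 1 = s * (δ - s) by rcases hs with rfl | rfl <;> ring]
    exact d5.mul_left _
  refine ⟨δ, ⟨o, d1, by omega, d6.coprime_dvd_left ⟨8 * M, by ring⟩⟩,
    d6.coprime_dvd_left (dvd_mul_left _ _), Dvd.dvd.trans ⟨8 * N, by push_cast; ring⟩ d8,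
    e1, ?_, by omega, by rwa [ds, e1]⟩
  have d9 : ((4 * (N : ℤ).natAbs : ℕ) : ℤ) ∣ δ - s :=
    Dvd.dvd.trans ⟨2 * M, by push_cast; simp; ring⟩ d5
  rcases hs with rfl | rfl
  · rw [jacobiSym.mod_right _ o, show δ % (4 * (N : ℤ).natAbs) = 1 % (4 * (N : ℤ).natAbs) from
      (Nat.modEq_iff_dvd.2 (by exact_mod_cast d9)).symm, ← jacobiSym.mod_right _ odd_one,
      jacobiSym.one_right]
  · refine jac_neg (by omega) N (Int.natCast_dvd_natCast.1 ?_)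
    exact Dvd.dvd.trans ⟨8 * M, by ring⟩ (show (8 * N * M : ℤ) ∣ _ by simpa using d5)

theorem pair {C : (ℕ → ℤ) → Prop} (h1 : CRV) (h2 : FLD) (hA : ANCHOR C) (hS : SMITH) (hI : P004T.ISO)
    (hL : LOC2) (hW : GWK2) : PAIR C := by
  intro N G a hG ha
  obtain ⟨A, B, hD, h⟩ := h1 N G a hG
  refine ⟨A, B, fun S₁ s M T s1 hs M0 => ?_⟩
  obtain ⟨S₀, s0, hA⟩ := hA A B
  obtain ⟨S, P, hr, hP, h⟩ := h (S₀ ∪ S₁) fun l hl => (Finset.mem_union.1 hl).elim (s0 l) (s1 l)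
  have hB := null_twoR hS hI hL hr hP (En.noi _)
  obtain ⟨m, m0, hU⟩ := En.ex_mod a
  obtain ⟨δ, hδ, c1, c2, c3, c4, c5, c6⟩ := ex_delta hB hG.pos.ne' (mul_ne_zero M0 m0) hs T
  obtain ⟨e, rfl, rfl, rfl, rfl, rfl, rfl, hS⟩ := h δ hδ (hU a 1 1 δ one_ne_zero one_ne_zero
    (fun p _ _ => by simp) (c1.coprime_dvd_left (dvd_mul_left _ _)) (by simp))
  obtain ⟨E, hE, k⟩ := hA e rfl rfl (fun l hl => hS l (by simp [hl])) ha
  obtain ⟨T', hT⟩ := h2 e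
  obtain ⟨δ', hd, n2⟩ := P004T.ex_of_null (P004T.null_comp hB (neg_ne_zero.2 (P004T.ds_ne hδ)))
    (posd_tail hE (T' + T + 5))
  rw [neg_mul_comm] at n2
  obtain ⟨ad, k⟩ := k δ' hd.1
  have h5 : T' + T + 5 ≤ δ' := hd.2
  have m8 : -(δ' : ℤ) % 8 = 1 := by have := ad.m8; omega
  obtain ⟨b, rfl⟩ := hT δ' (by omega) ad
  refine ⟨e, b, rfl, rfl, rfl, rfl, fun l hl => hS l (by simp [hl]),
    Dvd.dvd.trans ⟨m, by push_cast; rfl⟩ c2, c3, c4, c5, by omega, k b rfl, c6, n2,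
    hW _ S _ _ _ hr hP (En.noi _) (P004T.ds_ne hδ) ⟨by omega, ?_, m8,
      fun g hg => P004T.nu_two hP m8 hg, fun l hl l2 hs => ad.spl l ?_ l2⟩ c6 n2⟩
  · exact (Associated.squarefree_iff (Associated.refl _).neg_left).2 (Int.squarefree_natCast.2 ad.sq)
  · rcases hs with hs | hs
    · exact hS l (Finset.mem_union_right _ hs)
    · by_contra c
      refine (e.bad l hl c).1 (Dvd.dvd.mul_left (Int.natCast_dvd_natCast.1 ?_) _)
      unfold ds at hs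
      rcases P004T.eps_or hδ with k | k <;> rw [k] at hs <;> simpa using hs

end Vale.Agent.P014T
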